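import Vale.Agent.P270L.S4Gen

/-!
# P283M (AMP): local generators and systems of sections on a normal scheme
-/

set_option linter.all false

open CategoryTheory AlgebraicGeometry TopologicalSpace Order
open Vale.Agent.P299.G Vale.Agent.P289 Vale.Agent.P289.H219 Vale.Agent.P270L.S

namespace Vale.Agent.P283M.Am

/-- normal schemes -/
abbrev Nrm (X : Scheme.{0}) : Prop := ∀ x : X, IsIntegrallyClosed (X.presheaf.stalk x)

variable {X : Scheme.{0}} [IsIntegral X] [IsNoetherian X]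

/-- the order as a rational number -/
noncomputable def od (g : X.functionField) (y : X) : ℚ := (Scheme.ord g y : ℤ)

/-- `g` generates `O(D)` at `x` -/
def Gn (D : X → ℚ) (g : X.functionField) (x : X) : Prop :=
  g ≠ 0 ∧ ∀ y, coheight y = 1 → y ⤳ x → od g y + D y = 0

/-- `g` is a section of `O(D)` at `x` -/
def Sc (D : X → ℚ) (g : X.functionField) (x : X) : Prop :=
  g ≠ 0 → ∀ y, coheight y = 1 → y ⤳ x → 0 ≤ od g y + D y

/-- finitely many components -/
def Fs (D : X → ℚ) : Prop := {y | coheight y = 1 ∧ D y ≠ 0}.Finite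

variable {D E : X → ℚ} {f g u : X.functionField} {p q y : X}

theorem od_mul (hf : f ≠ 0) (hg : g ≠ 0) (y : X) : od (f * g) y = od f y + od g y := by
  rw [od, Scheme.ord_mul hf hg, Int.cast_add]; rfl

theorem od_inv (hf : f ≠ 0) (y : X) : od f⁻¹ y = - od f y := by
  rw [od, ord_inv' hf, Int.cast_neg]; rfl

theorem od_div (hf : f ≠ 0) (hg : g ≠ 0) (y : X) : od (f / g) y = od f y - od g y := by
  rw [div_eq_mul_inv, od_mul hf (inv_ne_zero hg), od_inv hg, sub_eq_add_neg]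

theorem od_pow (hf : f ≠ 0) (y : X) (n : ℕ) : od (f ^ n) y = n * od f y := by
  rw [od, ← zpow_natCast, ord_zpow' hf]; push_cast; rfl

theorem od_loc (hu : u ∈ loc p) (hy : y ⤳ p) : 0 ≤ od u y := by
  obtain ⟨a, rfl⟩ := hu
  exact Int.cast_nonneg_iff.2 (ord_toK_nonneg_of_specializes hy a)

theorem od_un (hu : Un p u) (hy : y ⤳ p) : od u y = 0 := by
  have h1 := od_loc hu.2.1 hy
  have h2 := od_loc hu.2.2 hy
  rw [od_inv hu.1] at h2
  linarith

theorem loc_of_od (hn : Nrm X) (h : u ≠ 0 → ∀ y, coheight y = 1 → y ⤳ p → 0 ≤ od u y) :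
    u ∈ loc p := by
  by_cases h0 : u = 0
  · rw [h0]; exact zero_mem _
  exact P299.Q.exists_of_forall_ord_nonneg_normal hn p u h0 fun y a b =>
    Int.cast_nonneg_iff.1 (h h0 y a b)

theorem un_of_od (hn : Nrm X) (h0 : u ≠ 0) (h : ∀ y, coheight y = 1 → y ⤳ p → od u y = 0) :
    Un p u :=
  ⟨h0, loc_of_od hn fun _ y a b => (h y a b).ge, loc_of_od hn fun _ y a b => by
    rw [od_inv h0, h y a b, neg_zero]⟩

theorem eq_of_spec {y y' : X} (a : coheight y = 1) (b : coheight y' = 1) (h : y' ⤳ y) :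
    y' = y := by
  have h1 : y ≤ y' := h
  by_contra hne
  have h2 : y < y' := lt_of_le_not_ge h1 fun h3 => hne (h.antisymm (show y ⤳ y' from h3)).eq
  have h3 := Order.coheight_add_one_le h2
  rw [a, b] at h3
  exact absurd h3 (by decide)

theorem od_pos (hn : Nrm X) (hy : coheight y = 1) (hu : u ∈ loc y) (h0 : u ≠ 0) (h1 : ¬ Un y u) :
    0 < od u y :=
  lt_of_le_of_ne (od_loc hu specializes_rfl) fun h => h1 (un_of_od hn h0 fun y' a b => by
    rw [eq_of_spec hy a b, ← h])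

theorem Gn.sc (h : Gn D g p) : Sc D g p := fun _ y a b => (h.2 y a b).ge

theorem Gn.mono (h : Gn D g p) (e : q ⤳ p) : Gn D g q := ⟨h.1, fun y a b => h.2 y a (b.trans e)⟩

theorem Sc.mono (h : Sc D g p) (e : q ⤳ p) : Sc D g q := fun c y a b => h c y a (b.trans e)

theorem gn_self (hy : coheight y = 1) : Gn D g y ↔ g ≠ 0 ∧ od g y + D y = 0 :=
  ⟨fun h => ⟨h.1, h.2 y hy specializes_rfl⟩, fun h => ⟨h.1, fun y' a b => by
    rw [eq_of_spec hy a b]; exact h.2⟩⟩

theorem div_loc (hn : Nrm X) (hf : Gn D f p) (hg : Sc D g p) : g / f ∈ loc p := by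
  refine loc_of_od hn fun h0 y a b => ?_
  have h1 : g ≠ 0 := fun h => h0 (by rw [h, zero_div])
  rw [od_div h1 hf.1]
  linarith [hf.2 y a b, hg h1 y a b]

theorem un_div (hn : Nrm X) (hf : Gn D f p) (hg : Gn D g p) : Un p (g / f) := by
  refine un_of_od hn (div_ne_zero hg.1 hf.1) fun y a b => ?_
  rw [od_div hg.1 hf.1]
  linarith [hf.2 y a b, hg.2 y a b]

theorem Gn.un (hf : Gn D f p) (hu : Un p u) : Gn D (u * f) p :=
  ⟨mul_ne_zero hu.1 hf.1, fun y a b => by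
    rw [od_mul hu.1 hf.1, od_un hu b, zero_add]; exact hf.2 y a b⟩

theorem Gn.of_un (hf : Gn D f p) (hu : Un p (g / f)) : Gn D g p := by
  have := hf.un hu
  rwa [div_mul_cancel₀ _ hf.1] at this

theorem Sc.loc (hf : Sc D f p) (hu : u ∈ loc p) : Sc D (u * f) p := fun h0 y a b => by
  rw [od_mul (left_ne_zero_of_mul h0) (right_ne_zero_of_mul h0)]
  linarith [od_loc hu b, hf (right_ne_zero_of_mul h0) y a b]

theorem Gn.mul (hf : Gn D f p) (hg : Gn E g p) : Gn (D + E) (f * g) p :=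
  ⟨mul_ne_zero hf.1 hg.1, fun y a b => by
    rw [od_mul hf.1 hg.1, Pi.add_apply]; linarith [hf.2 y a b, hg.2 y a b]⟩

theorem Sc.mul (hf : Sc D f p) (hg : Sc E g p) : Sc (D + E) (f * g) p := fun h0 y a b => by
  have h1 := left_ne_zero_of_mul h0
  have h2 := right_ne_zero_of_mul h0
  rw [od_mul h1 h2, Pi.add_apply]
  linarith [hf h1 y a b, hg h2 y a b]

theorem Gn.pow (hf : Gn D f p) (n : ℕ) : Gn ((n : ℚ) • D) (f ^ n) p :=
  ⟨pow_ne_zero n hf.1, fun y a b => by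
    rw [od_pow hf.1, Pi.smul_apply, smul_eq_mul, ← mul_add, hf.2 y a b, mul_zero]⟩

theorem Gn.inv (hf : Gn D f p) : Gn (-D) f⁻¹ p :=
  ⟨inv_ne_zero hf.1, fun y a b => by rw [od_inv hf.1, Pi.neg_apply]; linarith [hf.2 y a b]⟩

theorem Sc.pow (hf : Sc D f p) (n : ℕ) : Sc ((n : ℚ) • D) (f ^ n) p := fun h0 y a b => by
  rcases n.eq_zero_or_pos with rfl | hn
  · simp [od, ord_one']
  have h1 : f ≠ 0 := fun h => h0 (by rw [h, zero_pow hn.ne'])
  rw [od_pow h1, Pi.smul_apply, smul_eq_mul, ← mul_add]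
  exact mul_nonneg (Nat.cast_nonneg n) (hf h1 y a b)

theorem gn_pow_iff {n : ℕ} (hn : 0 < n) : Gn ((n : ℚ) • D) (f ^ n) p ↔ Gn D f p := by
  refine ⟨fun h => ?_, fun h => h.pow n⟩
  have h1 : f ≠ 0 := fun e => h.1 (by rw [e, zero_pow hn.ne'])
  refine ⟨h1, fun y a b => ?_⟩
  have := h.2 y a b
  rw [od_pow h1, Pi.smul_apply, smul_eq_mul, ← mul_add] at this
  exact (mul_eq_zero.1 this).resolve_left (Nat.cast_ne_zero.2 hn.ne')

theorem Fs.smul (h : Fs D) (c : ℚ) : Fs (c • D) :=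
  h.subset fun y a => ⟨a.1, fun e => a.2 (by rw [Pi.smul_apply, e, smul_zero])⟩

theorem Fs.add (h : Fs D) (h' : Fs E) : Fs (D + E) :=
  (h.union h').subset fun y a => by
    by_contra c
    simp only [Set.mem_union, Set.mem_setOf_eq, not_or, not_and, not_not] at c
    exact a.2 (by rw [Pi.add_apply, c.1 a.1, c.2 a.1, add_zero])

theorem Fs.neg (h : Fs D) : Fs (-D) := h.subset fun y a => ⟨a.1, neg_ne_zero.1 a.2⟩

theorem Fs.fin (h : Fs D) (hg : g ≠ 0) : {y | coheight y = 1 ∧ od g y + D y ≠ 0}.Finite :=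
  ((finite_ord_ne_zero g hg).union h).subset fun y a => by
    by_contra c
    simp only [Set.mem_union, Set.mem_setOf_eq, not_or, not_and, not_not] at c
    exact a.2 (by rw [od, c.1, c.2 a.1]; simp)

theorem Fs.isOpen (h : Fs D) (g : X.functionField) : IsOpen {x | Gn D g x} := by
  by_cases hg : g = 0
  · simp [Gn, hg]
  have : {x | Gn D g x} = ⋂ y ∈ {y | coheight y = 1 ∧ od g y + D y ≠ 0}, (closure {y})ᶜ := by
    ext x
    simp only [Set.mem_setOf_eq, Set.mem_iInter, Set.mem_compl_iff, ← specializes_iff_mem_closure]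
    exact ⟨fun a y b c => b.2 (a.2 y b.1 c), fun a => ⟨hg, fun y b c => by
      by_contra d; exact a y ⟨b, d⟩ c⟩⟩
  rw [this]
  exact (h.fin hg).isOpen_biInter fun y _ => isClosed_closure.isOpen_compl

theorem clr {α : Type} {a b : α → ℚ} {S : Set α}
    (hf : {y ∈ S | b y < 0}.Finite) (ha : ∀ y ∈ S, 0 ≤ a y) (hab : ∀ y ∈ S, b y < 0 → 0 < a y) :
    ∃ N : ℕ, ∀ n : ℕ, N ≤ n → ∀ y ∈ S, 0 ≤ n * a y + b y := by
  obtain ⟨M, hM⟩ := (hf.image fun y => ⌈-b y / a y⌉₊).bddAbove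
  refine ⟨M, fun n hn y hy => ?_⟩
  by_cases h : b y < 0
  · have h1 : ⌈-b y / a y⌉₊ ≤ n := (hM ⟨y, ⟨hy, h⟩, rfl⟩).trans hn
    rw [Nat.ceil_le, div_le_iff₀ (hab y hy h)] at h1
    linarith
  · have := mul_nonneg (Nat.cast_nonneg (α := ℚ) n) (ha y hy)
    linarith

end Vale.Agent.P283M.Am
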