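import Vale.Agent.P283M.Am.Cen
import Vale.Agent.P270W81.Zar
import Vale.Agent.P271.H58.Drop
import Vale.Agent.P287D.Va.Alg
import Vale.Agent.P287D.Ba.Mod

/-!
# P283M (AMP): divisorial places and points of a normal variety
-/

set_option linter.all false

open CategoryTheory AlgebraicGeometry TopologicalSpace Order IsLocalRing Pointwise
open Vale.Agent.P299.G Vale.Agent.P289 Vale.Agent.P289.H219 Vale.Agent.P270L.S
open Vale.Agent.P297 (Place)
open Vale.Agent.P287D Vale.Agent.P297Z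

noncomputable section

namespace Vale.Agent.P283M.Am

variable {X : Scheme.{0}} [IsIntegral X] [IsNoetherian X] {W U : X.Opens} {D E H : X → ℚ}
  {f g : X.functionField} {s u : Finset X.functionField} {x y p q : X}

theorem nonunits_iff {K : Type} [Field K] (P : Place K) {f : K} (h0 : f ≠ 0) :
    f ∈ P.ring.nonunits ↔ 0 < P.ord f := by
  rw [ValuationSubring.mem_nonunits_iff_or, or_iff_right h0,
    ← Pl.ord_nonneg_iff P (inv_ne_zero h0), Pl.ord_inv]
  omega

theorem dom_un {P : Place X.functionField} (h : Dom P.ring x) (hf : f ∈ loc x) :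
    Un x f ↔ f ≠ 0 ∧ P.ord f = 0 :=
  ⟨fun a => ⟨a.1, Pl.ord_unit P (h.mem a.2.1) (h.mem a.2.2)⟩,
    fun a => h.un hf a.1 ((Pl.ord_eq_zero_iff P a.1).1 a.2).2⟩

theorem dom_of {P : Place X.functionField} (h : ∀ f ∈ loc x, f ∈ P.ring)
    (h' : ∀ f ∈ loc x, f ≠ 0 → P.ord f = 0 → Un x f) : Dom P.ring x := fun a => by
  refine ⟨h _ (toK_mem x a), fun c => ?_⟩
  by_cases h0 : toK x a = 0
  · rw [h0]; exact (ValuationSubring.mem_nonunits_iff_or _).2 (.inl rfl)
  exact (nonunits_iff P h0).2 (lt_of_le_of_ne (Pl.ord_nonneg_of_mem P (h _ (toK_mem x a)))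
    fun e => c (un_toK.1 (h' _ (toK_mem x a) h0 e.symm)))

/-- at a point of codimension one the place is the order of vanishing -/
theorem dom_ord (hn : Nrm X) {P : Place X.functionField} (h : Dom P.ring y) (hy : coheight y = 1)
    (g : X.functionField) : P.ord g = Scheme.ord g y := by
  by_cases g0 : g = 0
  · rw [g0, Pl.ord_zero, Scheme.ord_zero]; rfl
  exact (P289W.ord_eq_of_dom hy P.ord (fun _ _ => Pl.ord_mul P) (Pl.exists_ord_eq_one P)
    (fun a a0 => ⟨Pl.ord_nonneg_of_mem P (h a).1, fun c => (nonunits_iff P a0).1 ((h a).2 c)⟩)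
    g0).symm

theorem dom_ring (hn : Nrm X) {P : Place X.functionField} (h : Dom P.ring y) (hy : coheight y = 1) :
    g ∈ P.ring ↔ g ∈ loc y :=
  ⟨fun a => (P289W.reg_iff hy g).2 fun _ => dom_ord hn h hy g ▸ Pl.ord_nonneg_of_mem P a, h.mem⟩

/-- the place of a point of codimension one -/
theorem exists_place (hn : Nrm X) (hy : coheight y = 1) :
    ∃ P : Place X.functionField, Dom P.ring y := by
  let O : ValuationSubring X.functionField := { loc y with
    mem_or_inv_mem' := fun g => by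
      by_cases g0 : g = 0
      · exact .inl (g0 ▸ zero_mem (loc y))
      rcases le_total 0 (Scheme.ord g y) with a | a
      · exact .inl ((P289W.reg_iff hy g).2 fun _ => a)
      · exact .inr ((P289W.reg_iff hy g⁻¹).2 fun _ => by rw [ord_inv' g0]; omega) }
  have := isDVR hy
  let e : X.presheaf.stalk y ≃+* O := RingEquiv.ofBijective ((toK y).codRestrict O (toK_mem y))
    ⟨fun a b c => toK_injective y (congrArg Subtype.val c), fun ⟨_, a, c⟩ => ⟨a, Subtype.ext c⟩⟩
  refine ⟨⟨O, IsDiscreteValuationRing.RingEquivClass.isDiscreteValuationRing e⟩, fun a =>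
    ⟨toK_mem y a, fun c => ?_⟩⟩
  exact (ValuationSubring.coe_mem_nonunits_iff (a := e a)).2 fun d => c ((isUnit_map_iff e a).1 d)

theorem coh_ne {P : Place X.functionField} (h : Dom P.ring x) : coheight x ≠ 0 := fun h0 => by
  have h4 : x ⤳ genericPoint X := coheight_eq_zero.1 h0 (genericPoint_specializes x)
  exact Pl.ring_ne_top P (eq_top_iff.2 fun f _ => h.mem (loc_mono h4 (mem_loc_gen f)))

theorem Sys.mul [DecidableEq X.functionField] (h : Sys W D s) (h' : Sys W E u) :
    Sys W (D + E) (s * u) :=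
  ⟨fun g a x hx => by
    obtain ⟨b, c, d, e, rfl⟩ := Finset.mem_mul.1 a
    exact (h.sec b c x hx).mul (h'.sec d e x hx), fun x hx =>
    let ⟨a, b, c⟩ := h.gen x hx
    let ⟨d, e, k⟩ := h'.gen x hx
    ⟨_, Finset.mul_mem_mul b e, c.mul k⟩⟩

theorem Sys.nz (h : Sys W D s) (hx : x ∈ W) : Nz s := let ⟨a, b, c⟩ := h.gen x hx; ⟨a, b, c.1⟩

/-- regular functions together with `1` -/
theorem sys_reg (hn : Nrm X) (h1 : 1 ∈ s) (h : ∀ a ∈ s, a ∈ reg W) : Sys W 0 s :=
  ⟨fun a b x c => (sc_zero hn).2 (mem_reg.1 (h a b) x c),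
    fun x _ => ⟨1, h1, (gn_zero hn).2 (un_one x)⟩⟩

variable [Algebra ℂ X.functionField] {n : ℕ} {P : Pl X.functionField}

theorem Sys.mz (h : Sys W D s) (hn : Nrm X) (hx : x ∈ W) (hP : Dom P.ring x) (hg : Gn D g x) :
    P.mz s = -P.ord g := by
  obtain ⟨b, hb, c⟩ := h.gen x hx
  have k := ((dom_un hP (un_div hn hg c).2.1).1 (un_div hn hg c)).2
  rw [Pl.ord_div _ c.1 hg.1] at k
  rw [P.mz_eq hb c.1 fun a ha a0 => ?_]
  · omega
  have := Pl.ord_nonneg_of_mem _ (hP.mem (div_loc hn c (h.sec a ha x hx)))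
  rw [Pl.ord_div _ a0 c.1] at this
  omega

theorem Sys.mx (h : Sys W D s) (hn : Nrm X) (hx : x ∈ W) (hP : Dom P.ring x) (hg : Gn D g x) :
    mx s P = -dv g P := by
  rw [mx_apply, h.mz hn hx hP hg, Int.cast_neg, dv_apply]

/-- the local ring as an algebra -/
def lcA (hS : Str X) (x : X) : Subalgebra ℂ X.functionField :=
  { loc x with algebraMap_mem' := hS.const x }

theorem Str.ff (hS : Str X) (h : Algebra.trdeg ℂ X.functionField = n) : FF X.functionField n := by
  obtain ⟨_, ⟨U, hU, rfl⟩, hx, -⟩ :=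
    X.isBasis_affineOpens.exists_subset_of_mem_open (Set.mem_univ (genericPoint X)) isOpen_univ
  obtain ⟨A, -, hA⟩ := hS.fg hU hx
  have h1 : IntermediateField.adjoin ℂ (A : Set X.functionField) = ⊤ := eq_top_iff.2 fun f _ => by
    obtain ⟨b, h1, h2, h3⟩ := frac hU hx (mem_loc_gen f)
    rw [← mul_div_cancel_left₀ f h2.1]
    exact div_mem (IntermediateField.algebra_adjoin_le_adjoin ℂ _ (hA _ h3))
      (IntermediateField.algebra_adjoin_le_adjoin ℂ _ (hA _ h1))
  have : Algebra.EssFiniteType ℂ X.functionField :=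
    IntermediateField.fg_top_iff.1 (h1 ▸ IntermediateField.fg_adjoin_finset A)
  obtain ⟨t, ht⟩ := exists_isTranscendenceBasis ℂ X.functionField
  obtain ⟨e⟩ := Cardinal.eq.1 ((Cardinal.mk_fin n).trans (ht.cardinalMk_eq_trdeg.trans h).symm)
  have k := ht.comp_equiv e
  have := k.isAlgebraic_field
  have : Algebra.EssFiniteType (IntermediateField.adjoin ℂ (Set.range (Subtype.val ∘ e)))
    X.functionField := .of_comp ℂ _ _
  exact ⟨_, k.1, Algebra.finite_of_essFiniteType_of_isAlgebraic⟩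

/-- **prime divisors give divisorial places** -/
theorem exists_pl_div (hS : Str X) (hn : Nrm X) (hK : FF X.functionField n) (hy : coheight y = 1) :
    ∃ P : Pl X.functionField, Dom P.ring y := by
  classical
  obtain ⟨P, hP⟩ := exists_place hn hy
  have hc : ∀ c, algebraMap ℂ X.functionField c ∈ P.ring := fun c => hP.mem (hS.const y c)
  refine ⟨⟨P, hc, trdeg_residue (Bm.trdeg_eq hK) P ⟨hc, ?_⟩⟩, hP⟩
  obtain ⟨_, ⟨U, hU, rfl⟩, hx, -⟩ :=
    X.isBasis_affineOpens.exists_subset_of_mem_open (Set.mem_univ y) isOpen_univ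
  have hx : y ∈ U := hx
  have hU : IsAffineOpen U := hU
  obtain ⟨str, _, e⟩ := hS.ex
  have : Nonempty U := ⟨⟨y, hx⟩⟩
  let _ := (cst str U).toAlgebra
  have : Algebra.FiniteType ℂ Γ(X, U) := cst_finiteType str hU
  have := functionField_isFractionRing_of_isAffineOpen X U hU
  have : IsScalarTower ℂ Γ(X, U) X.functionField :=
    .of_algebraMap_eq fun c => (e c).trans (germ_cst str U c).symm
  have : IsNoetherianRing Γ(X, U) := Algebra.FiniteType.isNoetherianRing ℂ _
  obtain ⟨m, φ, inj, int⟩ := exists_integral_inj_algHom_of_fg ℂ Γ(X, U)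
  let z : Fin m → Γ(X, U) := fun i => φ (MvPolynomial.X i)
  have ez : MvPolynomial.aeval z = φ := MvPolynomial.algHom_ext fun i => by simp [z]
  have hz : AlgebraicIndependent ℂ z := by rw [AlgebraicIndependent, ez]; exact inj
  have hi : ∀ a : Γ(X, U), IsIntegral (Algebra.adjoin ℂ (Set.range z)) a := fun a => by
    rw [Algebra.adjoin_range_eq_range_aeval, ez]
    obtain ⟨F, a1, a2⟩ := int a
    exact ⟨F.map φ.rangeRestrict.toRingHom, a1.map _, by rw [Polynomial.eval₂_map]; exact a2⟩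
  have hm : m = n := by
    have : Algebra.IsAlgebraic (Algebra.adjoin ℂ (Set.range z)) Γ(X, U) := ⟨fun a => (hi a).isAlgebraic⟩
    have k := (hz.isTranscendenceBasis_iff_isAlgebraic.2 this).cardinalMk_eq_trdeg
    have := IsLocalization.isAlgebraic X.functionField (nonZeroDivisors Γ(X, U))
    have k2 := Bm.trdeg_eq hK
    rw [← trdeg_add_eq ℂ Γ(X, U) (A := X.functionField), trdeg_eq_zero (R := Γ(X, U)), add_zero,
      ← k, Cardinal.mk_fin] at k2
    exact_mod_cast k2
  let I := (hU.primeIdealOf ⟨y, hx⟩).asIdeal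
  have hI : I.height = 1 := by
    have h5 := hU.isLocalization_stalk ⟨y, hx⟩
    let _ := TopCat.Presheaf.algebra_section_stalk X.presheaf (U := U) ⟨y, hx⟩
    have := IsLocalization.AtPrime.ringKrullDim_eq_height I (X.presheaf.stalk y)
    rw [ringKrullDim_stalk_eq_coheight, hy] at this
    exact_mod_cast this.symm
  obtain ⟨b, b1, b0⟩ := Submodule.exists_mem_ne_zero_of_ne_bot (p := I) fun c => by
    rw [c, Ideal.height_bot] at hI; exact zero_ne_one hI
  have hb : I ∈ (Ideal.span {b}).minimalPrimes := by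
    refine ⟨⟨inferInstance, (Ideal.span_singleton_le_iff_mem _).2 b1⟩, fun J a c => ?_⟩
    by_contra d
    have := a.1
    have k1 : (⊥ : Ideal Γ(X, U)) < J := bot_lt_iff_ne_bot.2 fun k =>
      b0 (by simpa [k] using a.2 (Ideal.mem_span_singleton_self b))
    have k2 := Ideal.height_strict_mono_of_isPrime k1
    have k3 := Ideal.height_strict_mono_of_isPrime (lt_of_le_not_ge c d)
    rw [hI] at k3
    rw [Ideal.height_bot] at k2
    exact (Order.one_le_iff_pos.2 k2).not_gt k3
  obtain ⟨i, hi⟩ := P271.Drop.drop_core z hz hi b0 hb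
  obtain ⟨d, rfl⟩ : ∃ d, m = d + 1 := ⟨m - 1, by have := i.pos; omega⟩
  have hi' := hi.comp (fun j : Fin d => ⟨i.succAbove j, Fin.succAbove_ne i j⟩) fun a b c =>
    Fin.succAbove_right_injective (congrArg Subtype.val c)
  refine ⟨d, fun j => H594.secK U (z (i.succAbove j)), hm,
    fun j => hP.mem (mem_reg.1 (secK_reg U _) y hx), fun F F0 => ?_⟩
  have k1 : MvPolynomial.aeval (fun j => z (i.succAbove j)) F ∉ I := fun c => F0
    (algebraicIndependent_iff.1 hi' F ((MvPolynomial.comp_aeval_apply _ (Ideal.Quotient.mkₐ ℂ I)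
      F).symm.trans (Ideal.Quotient.eq_zero_iff_mem.2 c)))
  rw [mem_primeIdealOf, not_not, ← un_toK, H594.toK_germ] at k1
  have k2 : H594.secK U (MvPolynomial.aeval (fun j => z (i.succAbove j)) F) =
      MvPolynomial.aeval (fun j => H594.secK U (z (i.succAbove j))) F :=
    MvPolynomial.comp_aeval_apply _ (IsScalarTower.toAlgHom ℂ Γ(X, U) X.functionField) F
  rw [k2] at k1
  rw [P.val_eq _ k1.1, ((dom_un hP k1.2.1).1 k1).2, neg_zero, WithZero.exp_zero]

theorem rd_rs (h : Sys W D s) (hn : Nrm X) (hx : x ∈ W) (hP : Dom P.ring x) (hg : Gn D g x)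
    (hf : f ∈ s) : P.rd (g * P.t ^ P.mz s) ≠ 0 ∧
      P.rd (f * P.t ^ P.mz s) = P.rd (f / g) * P.rd (g * P.t ^ P.mz s) := by
  have a : P.ord (g * P.t ^ P.mz s) = 0 := by rw [P.ord_mul_t hg.1, h.mz hn hx hP hg, add_neg_cancel]
  have b := mul_ne_zero hg.1 (zpow_ne_zero (P.mz s) P.t_ne)
  have c := (Pl.ord_nonneg_iff _ b).1 a.ge
  refine ⟨fun e => ?_, ?_⟩
  · rcases (Bm.rd_zero_iff P c).1 e with e | e
    · exact b e
    · omega
  · rw [← Bm.rd_mul P (hP.mem (div_loc hn hg (h.sec f hf x hx))) c, ← mul_assoc,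
      div_mul_cancel₀ _ hg.1]

/-- **a prime divisor of the model of a free system has a centre of codimension one** -/
theorem Sys.coh (h : Sys W D s) (hS : Str X) (hn : Nrm X) (hK : FF X.functionField (n + 1))
    (hx : x ∈ W) (hP : Dom P.ring x) (ho : On n (P287D.mx s) P) : coheight x = 1 := by
  classical
  rw [Ba.Md.on_iff_big hK (nef_mx s), res_mx hK, big_mx_iff (Bm.ff_κ hK P)] at ho
  let ρ := Bm.rdh P (lcA hS x) fun f a => hP.mem a
  obtain ⟨g, hg, c⟩ := h.gen x hx
  have k1 : rts (P.rs s) ≤ IntermediateField.adjoin ℂ (Set.range ρ) := rts_le_iff.2 fun _ ha' _ hb' => by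
    obtain ⟨a, ha, rfl⟩ := Finset.mem_image.1 ha'
    obtain ⟨b, hb, rfl⟩ := Finset.mem_image.1 hb'
    rw [(rd_rs h hn hx hP c ha).2, (rd_rs h hn hx hP c hb).2,
      mul_div_mul_right _ _ (rd_rs h hn hx hP c ha).1]
    exact div_mem
      (IntermediateField.subset_adjoin _ _ ⟨⟨_, div_loc hn c (h.sec a ha x hx)⟩, rfl⟩)
      (IntermediateField.subset_adjoin _ _ ⟨⟨_, div_loc hn c (h.sec b hb x hx)⟩, rfl⟩)
  have : Algebra.IsAlgebraic (Algebra.adjoin ℂ (Set.range ρ)) P.κ := ⟨fun a =>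
    IntermediateField.isAlgebraic_adjoin_iff.1 ((ho a).tower_top_of_subalgebra_le
      (A := (rts (P.rs s)).toSubalgebra)
      (B := (IntermediateField.adjoin ℂ (Set.range ρ)).toSubalgebra) k1)⟩
  obtain ⟨t, t1, t2⟩ := exists_isTranscendenceBasis_subset (R := ℂ) (Set.range ρ)
  obtain ⟨e⟩ := Cardinal.eq.1
    ((Cardinal.mk_fin n).trans (t2.cardinalMk_eq_trdeg.trans (Bm.trdeg_κ hK P)).symm)
  choose z hz using fun i => t1 (e i).2
  have k2 : AlgebraicIndependent ℂ fun i => ρ (z i) := (funext hz).symm ▸ (t2.comp_equiv e).1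
  let ε : X.presheaf.stalk x ≃+* lcA hS x :=
    RingEquiv.ofBijective ((toK x).codRestrict (lcA hS x) (toK_mem x))
      ⟨fun a b c => toK_injective x (congrArg Subtype.val c), fun ⟨_, a, c⟩ => ⟨a, Subtype.ext c⟩⟩
  have : IsLocalRing (lcA hS x) := ε.isLocalRing
  have k3 := P270W81.dim_le (lcA hS x).val Subtype.val_injective (Bm.trdeg_eq hK) z fun F F0 => by
    have a : ρ (MvPolynomial.aeval z F) ≠ 0 := fun a => F0
      (algebraicIndependent_iff.1 k2 F ((MvPolynomial.comp_aeval_apply z ρ F).symm.trans a))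
    obtain ⟨b, hb⟩ := ε.surjective (MvPolynomial.aeval z F)
    rw [← hb] at a ⊢
    have m := hP.mem (toK_mem x b)
    have d := mt (Bm.rd_zero_iff P m).2 a
    rw [not_or, not_lt] at d
    exact (un_toK.1 ((dom_un hP (toK_mem x b)).2
      ⟨d.1, le_antisymm d.2 (Pl.ord_nonneg_of_mem _ m)⟩)).map ε
  rw [Ring.krullDimLE_iff, ← ringKrullDim_eq_of_ringEquiv ε, ringKrullDim_stalk_eq_coheight] at k3
  exact le_antisymm (by exact_mod_cast k3) (Order.one_le_iff_ne_zero.2 (coh_ne hP))

/-- **prime divisors are prime divisors of the model of a very ample system** -/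
theorem VA.on (h : VA W D s) (hS : Str X) (hn : Nrm X) (hK : FF X.functionField (n + 1))
    (hx : x ∈ W) (hP : Dom P.ring x) (hc : coheight x = 1) : On n (mx s) P := by
  classical
  rw [Ba.Md.on_iff_big hK (nef_mx s), res_mx hK]
  obtain ⟨g, hg, U, hU, hxU, he, hr⟩ := h.chart x hx
  have c := ((he x).1 hxU).2
  have m : ∀ f ∈ chr s g, f ∈ P.ring := fun f a =>
    hP.mem (hS.chr_loc hn (fun b hb => h.sec b hb x hx) c a)
  have k : ∀ f ∈ chr s g, P.rd f ∈ rts (P.rs s) := fun f a => by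
    induction a using Algebra.adjoin_induction with
    | mem _ a =>
      obtain ⟨b, hb, rfl⟩ := a
      have := rd_rs h.sys hn hx hP c hb
      rw [← mul_div_cancel_right₀ (P.rd (b / g)) this.1, ← this.2]
      exact div_mem_rts (Finset.mem_image_of_mem _ hb) (Finset.mem_image_of_mem _ hg)
    | algebraMap r => rw [Bm.rd_const]; exact IntermediateField.algebraMap_mem _ r
    | add a b c d e k => rw [Bm.rd_add P (m a c) (m b d)]; exact add_mem e k
    | mul a b c d e k => rw [Bm.rd_mul P (m a c) (m b d)]; exact mul_mem e k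
  refine big_mx fun a => ?_
  obtain ⟨f, hf, rfl⟩ := Bm.rd_surj P a
  obtain ⟨b, b1, b2, b3⟩ := frac hU hxU ((dom_ring hn hP hc).1 hf)
  have b0 : P.rd b ≠ 0 := fun e => by
    have := (dom_un hP b2.2.1).1 b2
    rcases (Bm.rd_zero_iff P (hP.mem b2.2.1)).1 e with e | e
    · exact b2.1 e
    · omega
  have := div_mem (k _ (hr _ b3)) (k _ (hr _ b1))
  rw [Bm.rd_mul P (hP.mem b2.2.1) hf, mul_div_cancel_left₀ _ b0] at this
  exact isAlgebraic_algebraMap (⟨_, this⟩ : rts (P.rs s))

/-- **the prime divisors over `W` of the model of a very ample system plus a free system** -/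
theorem VA.on_iff (h : VA W D s) (h' : Sys W E u) (hS : Str X) (hn : Nrm X)
    (hK : FF X.functionField (n + 1)) (hx : x ∈ W) (hP : Dom P.ring x) :
    On n (mx s + mx u) P ↔ coheight x = 1 := by
  classical
  refine ⟨fun a => (h.sys.mul h').coh hS hn hK hx hP
    (by rwa [mx_mul (h.sys.nz hx) (h'.nz hx)]), fun a => ?_⟩
  have := h.on hS hn hK hx hP a
  rw [Ba.Md.on_iff_big hK (nef_mx s)] at this
  rw [Ba.Md.on_iff_big hK ((nef_mx s).add (nef_mx u)), res_add hK P (mx_mem_Car s) (mx_mem_Car u)]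
  exact this.add_nef (res_nef hK P (nef_mx u))

theorem VA.big (h : VA W D s) (hx : x ∈ W) : Big (mx s) := by
  obtain ⟨g, hg, U, hU, hxU, he, hr⟩ := h.chart x hx
  have k : chr s g ≤ (rts s).toSubalgebra :=
    Algebra.adjoin_le (by rintro _ ⟨b, hb, rfl⟩; exact div_mem_rts hb hg)
  refine big_mx fun f => ?_
  obtain ⟨b, b1, b2, b3⟩ := frac hU ((genericPoint_specializes x).mem_open U.isOpen hxU)
    (mem_loc_gen f)
  have : b * f / b ∈ rts s := div_mem (k (hr _ b3)) (k (hr _ b1))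
  rw [mul_div_cancel_left₀ _ b2.1] at this
  exact isAlgebraic_algebraMap (⟨_, this⟩ : rts s)

end Vale.Agent.P283M.Am
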