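import Vale.Agent.P283M.Am.Bas

/-!
# P283M (AMP): systems of sections over an open set, very ample systems
-/

set_option linter.all false

open CategoryTheory AlgebraicGeometry TopologicalSpace Order
open Vale.Agent.P299.G Vale.Agent.P289 Vale.Agent.P289.H219 Vale.Agent.P270L.S

noncomputable section

namespace Vale.Agent.P283M.Am

variable {X : Scheme.{0}} [IsIntegral X] [IsNoetherian X]

/-- the functions which are regular on `U` -/
def reg (U : X.Opens) : Subring X.functionField := ⨅ p ∈ U, loc p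

theorem mem_reg {U : X.Opens} {f : X.functionField} : f ∈ reg U ↔ ∀ p ∈ U, f ∈ loc p := by
  simp [reg, Subring.mem_iInf]

theorem secK_reg (U : X.Opens) [Nonempty U] (a : Γ(X, U)) : H594.secK U a ∈ reg U :=
  mem_reg.2 fun p hp => ⟨_, H594.toK_germ U p hp a⟩

theorem un_secK {U : X.Opens} [Nonempty U] (a : Γ(X, U)) {p : X} (hp : p ∈ U) :
    Un p (H594.secK U a) ↔ p ∈ X.basicOpen a := by
  rw [Scheme.mem_basicOpen _ _ _ hp, ← un_toK, H594.toK_germ U p hp a]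

theorem secK_res {U V : X.Opens} [Nonempty U] [Nonempty V] (e : V ≤ U) (a : Γ(X, U)) :
    H594.secK V (X.presheaf.map (homOfLE e).op a) = H594.secK U a :=
  X.presheaf.germ_res_apply _ _ _ _

/-- a function which is regular at all points of `U` is a section over `U` -/
theorem reg_iff {U : X.Opens} [Nonempty U] {f : X.functionField} :
    f ∈ reg U ↔ ∃ a : Γ(X, U), H594.secK U a = f := by
  refine ⟨fun h => ?_, fun ⟨a, e⟩ => e ▸ secK_reg U a⟩
  have k : ∀ x : U, ∃ (V : X.Opens) (_ : Nonempty V) (a : Γ(X, V)), x.1 ∈ V ∧ V ≤ U ∧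
      H594.secK V a = f := fun x => by
    obtain ⟨b, hb⟩ := mem_reg.1 h x.1 x.2
    obtain ⟨V, hV, a, ha⟩ := X.presheaf.germ_exist b
    have : Nonempty V := ⟨⟨_, hV⟩⟩
    have : Nonempty ↑(V ⊓ U) := ⟨⟨_, hV, x.2⟩⟩
    exact ⟨V ⊓ U, this, _, ⟨hV, x.2⟩, inf_le_right,
      (secK_res inf_le_left a).trans ((H594.toK_germ V x.1 hV a).symm.trans (ha ▸ hb))⟩
  choose V hV a h1 h2 h3 using k
  obtain ⟨r, hr, -⟩ := X.sheaf.existsUnique_gluing' V U (fun x => homOfLE (h2 x))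
    (fun x hx => Opens.mem_iSup.2 ⟨⟨x, hx⟩, h1 _⟩) a fun x y => by
      have g : ∀ x, genericPoint X ∈ V x := fun x =>
        (genericPoint_specializes x.1).mem_open (V x).isOpen (h1 x)
      have : Nonempty ↑(V x ⊓ V y) := ⟨⟨_, g x, g y⟩⟩
      exact X.germToFunctionField_injective (V x ⊓ V y)
        (((secK_res inf_le_left (a x)).trans (h3 x)).trans
          ((secK_res inf_le_right (a y)).trans (h3 y)).symm)
  obtain ⟨x⟩ := ‹Nonempty U›
  have := hV x
  exact ⟨r, (secK_res (h2 x) r).symm.trans (congrArg _ (hr x) |>.trans (h3 x))⟩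

theorem gn_zero (hn : Nrm X) {g : X.functionField} {p : X} : Gn 0 g p ↔ Un p g :=
  ⟨fun h => un_of_od hn h.1 fun y a b => by simpa using h.2 y a b,
    fun h => ⟨h.1, fun y a b => by simpa using od_un h b⟩⟩

theorem sc_zero (hn : Nrm X) {g : X.functionField} {p : X} : Sc 0 g p ↔ g ∈ loc p :=
  ⟨fun h => loc_of_od hn fun c y a b => by simpa using h c y a b,
    fun h _ y a b => by simpa using od_loc h b⟩

theorem fs_zero : Fs (0 : X → ℚ) := by simp [Fs]

/-- in an affine open set, units detect specialisation -/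
theorem spec_of_un {U : X.Opens} (hU : IsAffineOpen U) {p q : X} (hp : p ∈ U) (hq : q ∈ U)
    (h : ∀ a ∈ reg U, Un p a → Un q a) : q ⤳ p := by
  have : Nonempty U := ⟨⟨p, hp⟩⟩
  refine specializes_of_le hU hp hq fun a ha => ?_
  rw [mem_primeIdealOf, ← Scheme.mem_basicOpen, ← un_secK a (by assumption)] at ha ⊢
  exact fun c => ha (h _ (secK_reg U a) c)

theorem frac {U : X.Opens} (hU : IsAffineOpen U) {p : X} (hp : p ∈ U) {f : X.functionField}
    (hf : f ∈ loc p) : ∃ b ∈ reg U, Un p b ∧ b * f ∈ reg U := by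
  have : Nonempty U := ⟨⟨p, hp⟩⟩
  obtain ⟨α, rfl⟩ := hf
  have hloc := hU.isLocalization_stalk ⟨p, hp⟩
  let _ := TopCat.Presheaf.algebra_section_stalk X.presheaf (U := U) ⟨p, hp⟩
  obtain ⟨⟨a, s⟩, has⟩ := IsLocalization.surj (hU.primeIdealOf ⟨p, hp⟩).asIdeal.primeCompl α
  have has' : α * X.presheaf.germ U p hp s.1 = X.presheaf.germ U p hp a := has
  have hs : IsUnit (X.presheaf.germ U p hp s.1) := IsLocalization.map_units (X.presheaf.stalk p) s
  refine ⟨toK p (X.presheaf.germ U p hp s.1), ?_, un_toK.2 hs, ?_⟩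
  · rw [H594.toK_germ]; exact secK_reg U _
  · rw [← map_mul, mul_comm, has', H594.toK_germ]; exact secK_reg U _

variable {W U : X.Opens} {D E H : X → ℚ} {f g : X.functionField} {s : Finset X.functionField}
  {x p q : X}

/-- extension of sections from the locus where `g` generates -/
theorem ext_sec (hE : Fs E) (h0 : g ≠ 0) (hg : ∀ p ∈ W, Sc D g p)
    (hf : ∀ p ∈ W, Gn D g p → Sc E f p) :
    ∃ N : ℕ, ∀ n : ℕ, N ≤ n → ∀ p ∈ W, Sc (E + (n : ℚ) • D) (f * g ^ n) p := by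
  by_cases f0 : f = 0
  · exact ⟨0, fun n _ p _ c => absurd (by rw [f0, zero_mul]) c⟩
  obtain ⟨N, hN⟩ := clr (a := fun y => od g y + D y) (b := fun y => od f y + E y)
    (S := {y | coheight y = 1 ∧ y ∈ W}) ((hE.fin f0).subset fun y a => ⟨a.1.1, a.2.ne⟩)
    (fun y a => hg y a.2 h0 y a.1 specializes_rfl) fun y a b =>
      lt_of_le_of_ne (hg y a.2 h0 y a.1 specializes_rfl) fun c =>
        b.not_ge (hf y a.2 ((gn_self a.1).2 ⟨h0, c.symm⟩) f0 y a.1 specializes_rfl)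
  refine ⟨N, fun n hn p hp _ y a b => ?_⟩
  have := hN n hn y ⟨a, b.mem_open W.isOpen hp⟩
  rw [od_mul f0 (pow_ne_zero n h0), od_pow h0, Pi.add_apply, Pi.smul_apply, smul_eq_mul]
  linarith

/-- the functions `s` are sections of `O(D)` over `W` which generate it -/
structure Sys (W : X.Opens) (D : X → ℚ) (s : Finset X.functionField) : Prop where
  sec : ∀ g ∈ s, ∀ x ∈ W, Sc D g x
  gen : ∀ x ∈ W, ∃ g ∈ s, Gn D g x

/-- ample on `W`, by the affine loci of sections -/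
def Amp (W : X.Opens) (D : X → ℚ) : Prop :=
  ∀ x ∈ W, ∃ (m : ℕ) (g : X.functionField) (U : X.Opens), 0 < m ∧ IsAffineOpen U ∧ x ∈ U ∧
    (∀ p ∈ W, Sc ((m : ℚ) • D) g p) ∧ ∀ p, p ∈ U ↔ p ∈ W ∧ Gn ((m : ℚ) • D) g p

theorem cover {ι : Type} (W : X.Opens) (O : ι → Set X) (hO : ∀ i, IsOpen (O i))
    (h : ∀ x ∈ W, ∃ i, x ∈ O i) : ∃ T : Finset ι, ∀ x ∈ W, ∃ i ∈ T, x ∈ O i := by
  obtain ⟨T, hT⟩ := (NoetherianSpace.isCompact (W : Set X)).elim_finite_subcover O hO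
    fun x hx => Set.mem_iUnion.2 (h x hx)
  exact ⟨T, fun x hx => by simpa using hT hx⟩

variable [Algebra ℂ X.functionField]

/-- the ring of the chart of `g` -/
def chr (s : Finset X.functionField) (g : X.functionField) : Subalgebra ℂ X.functionField :=
  Algebra.adjoin ℂ ((fun b => b / g) '' s)

/-- a very ample system: affine charts whose rings are generated by the ratios cover `W` -/
structure VA (W : X.Opens) (D : X → ℚ) (s : Finset X.functionField) : Prop where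
  sec : ∀ g ∈ s, ∀ x ∈ W, Sc D g x
  chart : ∀ x ∈ W, ∃ g ∈ s, ∃ U : X.Opens, IsAffineOpen U ∧ x ∈ U ∧
    (∀ p, p ∈ U ↔ p ∈ W ∧ Gn D g p) ∧ ∀ f ∈ reg U, f ∈ chr s g

theorem VA.sys (h : VA W D s) : Sys W D s :=
  ⟨h.sec, fun x hx => let ⟨g, a, U, _, b, c, _⟩ := h.chart x hx; ⟨g, a, ((c x).1 b).2⟩⟩

/-- the constants come from a structure morphism of finite type -/
structure Str (X : Scheme.{0}) [IsIntegral X] [Algebra ℂ X.functionField] : Prop where
  ex : ∃ str : X ⟶ Spec (.of ℂ), LocallyOfFiniteType str ∧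
    ∀ c, algebraMap ℂ X.functionField c = constants str c

theorem Str.const (h : Str X) (p : X) (c : ℂ) : algebraMap ℂ X.functionField c ∈ loc p := by
  obtain ⟨str, -, e⟩ := h.ex
  have : Nonempty (⊤ : X.Opens) := ⟨⟨p, trivial⟩⟩
  rw [e, ← germ_cst str ⊤ c]
  exact mem_reg.1 (secK_reg ⊤ _) p trivial

theorem Str.fg (h : Str X) (hU : IsAffineOpen U) (hx : x ∈ U) :
    ∃ A : Finset X.functionField, (∀ a ∈ A, a ∈ reg U) ∧
      ∀ f ∈ reg U, f ∈ Algebra.adjoin ℂ (A : Set X.functionField) := by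
  classical
  obtain ⟨str, _, e⟩ := h.ex
  have : Nonempty U := ⟨⟨x, hx⟩⟩
  let _ := (cst str U).toAlgebra
  have : Algebra.FiniteType ℂ Γ(X, U) := cst_finiteType str hU
  obtain ⟨T, hT⟩ := Algebra.FiniteType.out (R := ℂ) (A := Γ(X, U))
  let φ : Γ(X, U) →ₐ[ℂ] X.functionField :=
    { (X.germToFunctionField U).hom with commutes' := fun c => (germ_cst str U c).trans (e c).symm }
  refine ⟨T.image φ, fun a ha => ?_, fun f hf => ?_⟩
  · obtain ⟨b, -, rfl⟩ := Finset.mem_image.1 ha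
    exact secK_reg U b
  · obtain ⟨a, rfl⟩ := reg_iff.1 hf
    rw [Finset.coe_image, Algebra.adjoin_image, hT]
    exact ⟨a, trivial, rfl⟩

theorem Str.chr_loc (h : Str X) (hn : Nrm X) (hs : ∀ b ∈ s, Sc D b p) (hg : Gn D g p)
    (hf : f ∈ chr s g) : f ∈ loc p := by
  have : chr s g ≤ { loc p with algebraMap_mem' := h.const p } :=
    Algebra.adjoin_le (by rintro _ ⟨b, hb, rfl⟩; exact div_loc hn hg (hs b hb))
  exact this hf

/-- **ample gives very ample** -/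
theorem Amp.va (h : Amp W D) (hS : Str X) (hn : Nrm X) : ∃ (m : ℕ) (s : Finset X.functionField),
    0 < m ∧ VA W ((m : ℚ) • D) s := by
  classical
  choose m g U m0 hU hx hg he using fun x : W => h x.1 x.2
  obtain ⟨T, hT⟩ := cover W (fun x => U x) (fun x => (U x).isOpen) fun x hx' => ⟨⟨x, hx'⟩, hx _⟩
  obtain ⟨M, M0, hM⟩ : ∃ M, 0 < M ∧ ∀ x ∈ T, m x ∣ M :=
    ⟨∏ x ∈ T, m x, Finset.prod_pos fun x _ => m0 x, fun x a => Finset.dvd_prod_of_mem m a⟩
  have g0 : ∀ x, g x ≠ 0 := fun x => ((he x x).1 (hx x)).2.1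
  choose A hA hA' using fun x : W => hS.fg (hU x) (hx x)
  have k1 : ∀ (x : W) (a : X.functionField), ∃ N : ℕ, a ∈ A x → ∀ n : ℕ, N ≤ n → ∀ p ∈ W,
      Sc ((n : ℚ) • (m x : ℚ) • D) (a * g x ^ n) p := fun x a => by
    by_cases c : a ∈ A x
    · obtain ⟨N, hN⟩ := ext_sec (f := a) fs_zero (g0 x) (hg x) fun p a' b =>
        (sc_zero hn).2 (mem_reg.1 (hA x a c) p ((he x p).2 ⟨a', b⟩))
      exact ⟨N, fun _ n hn p hp => by simpa using hN n hn p hp⟩
    · exact ⟨0, fun d => absurd d c⟩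
  choose N hN using k1
  obtain ⟨R, R0, hR⟩ : ∃ R, 0 < R ∧ ∀ x ∈ T, ∀ a ∈ A x, N x a ≤ R :=
    ⟨T.sup (fun x => (A x).sup (N x)) + 1, Nat.succ_pos _, fun x a b c =>
      ((Finset.le_sup (f := N x) c).trans
        (Finset.le_sup (f := fun x => (A x).sup (N x)) a)).trans (Nat.le_succ _)⟩
  let e : W → ℕ := fun x => R * (M / m x)
  have e1 : ∀ x ∈ T, 0 < M / m x := fun x a => Nat.div_pos (Nat.le_of_dvd M0 (hM x a)) (m0 x)
  have e2 : ∀ x ∈ T, (e x : ℚ) • (m x : ℚ) • D = ((R * M : ℕ) : ℚ) • D := fun x a => by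
    rw [smul_smul, ← Nat.cast_mul, mul_assoc, Nat.div_mul_cancel (hM x a)]
  refine ⟨R * M, T.biUnion fun x => (insert 1 (A x)).image fun a => a * g x ^ e x,
    mul_pos R0 M0, fun b hb p hp => ?_, fun y hy => ?_⟩
  · obtain ⟨x, a, hb⟩ := Finset.mem_biUnion.1 hb
    obtain ⟨c, hc, rfl⟩ := Finset.mem_image.1 hb
    rw [← e2 x a]
    rcases Finset.mem_insert.1 hc with rfl | hc
    · rw [one_mul]; exact (hg x p hp).pow _
    · exact hN x c hc _ ((hR x a c hc).trans (Nat.le_mul_of_pos_right _ (e1 x a))) p hp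
  · obtain ⟨x, a, b⟩ := hT y hy
    have mem : ∀ c ∈ insert 1 (A x), c * g x ^ e x ∈
        T.biUnion fun x => (insert 1 (A x)).image fun a => a * g x ^ e x := fun c hc =>
      Finset.mem_biUnion.2 ⟨x, a, Finset.mem_image_of_mem _ hc⟩
    refine ⟨g x ^ e x, by simpa using mem 1 (Finset.mem_insert_self _ _), U x, hU x, b,
      fun p => ?_, fun f hf => Algebra.adjoin_mono (fun c hc => ?_) (hA' x f hf)⟩
    · rw [he, ← e2 x a, gn_pow_iff (mul_pos R0 (e1 x a))]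
    · exact ⟨_, mem c (Finset.mem_insert_of_mem hc), mul_div_cancel_right₀ _ (pow_ne_zero _ (g0 x))⟩

/-- **every Cartier divisor is a difference of two free systems** -/
theorem VA.rep (h : VA W H s) (hn : Nrm X) (hE : Fs E) (hc : ∀ x ∈ W, ∃ f, Gn E f x) :
    ∃ (c : ℕ) (s' : Finset X.functionField), Sys W (E + (c : ℚ) • H) s' := by
  classical
  have k : ∀ x : W, ∃ (g f : X.functionField) (O : Set X) (N : ℕ), IsOpen O ∧ x.1 ∈ O ∧
      (∀ p ∈ O, Gn E f p ∧ Gn H g p) ∧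
      ∀ n : ℕ, N ≤ n → ∀ p ∈ W, Sc (E + (n : ℚ) • H) (f * g ^ n) p := fun x => by
    obtain ⟨g, hg, U, hU, hx, he, -⟩ := h.chart x.1 x.2
    obtain ⟨f, hf⟩ := hc x.1 x.2
    have : Nonempty U := ⟨⟨_, hx⟩⟩
    obtain ⟨b, b1, b2⟩ := hU.exists_basicOpen_le (V := ⟨_, hE.isOpen f⟩) ⟨x.1, hf⟩ hx
    have b0 := ((un_secK b hx).2 b2).1
    obtain ⟨N, hN⟩ := ext_sec (W := U) (D := 0) (f := f) hE b0
      (fun p hp => (sc_zero hn).2 (mem_reg.1 (secK_reg U b) p hp))
      fun p hp c => Gn.sc (b1 ((un_secK b hp).1 ((gn_zero hn).1 c)))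
    obtain ⟨R, hR⟩ := ext_sec (f := f * H594.secK U b ^ N) hE ((he _).1 hx).2.1 (h.sec g hg)
      fun p a c => by simpa using hN N le_rfl p ((he p).2 ⟨a, c⟩)
    refine ⟨g, _, X.basicOpen b, R, (X.basicOpen b).isOpen, b2, fun p hp => ⟨?_, ?_⟩, hR⟩
    · rw [mul_comm]
      exact Gn.un (b1 hp) (((un_secK b (X.basicOpen_le b hp)).2 hp).pow N)
    · exact ((he p).1 (X.basicOpen_le b hp)).2
  choose g f O N hO hx hg hN using k
  obtain ⟨T, hT⟩ := cover W O hO fun x hx' => ⟨⟨x, hx'⟩, hx _⟩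
  refine ⟨T.sup N, T.image fun x => f x * g x ^ T.sup N, fun b hb => ?_, fun y hy => ?_⟩
  · obtain ⟨x, a, rfl⟩ := Finset.mem_image.1 hb
    exact hN x _ (Finset.le_sup a)
  · obtain ⟨x, a, b⟩ := hT y hy
    exact ⟨_, Finset.mem_image_of_mem _ a, (hg x y b).1.mul ((hg x y b).2.pow _)⟩

/-- the centre of a valuation ring is unique -/
theorem VA.uniq (h : VA W H s) (hn : Nrm X) {O : ValuationSubring X.functionField} (hp : p ∈ W)
    (hq : q ∈ W) (a : Dom O p) (b : Dom O q) : p = q := by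
  obtain ⟨g, hg, U, hU, hx, he, -⟩ := h.chart q hq
  obtain ⟨f, hf, c⟩ := h.sys.gen p hp
  have d := ((he q).1 hx).2
  have h1 : p ∈ U := (he p).2 ⟨hp, c.of_un (a.un (div_loc hn c (h.sec g hg p hp))
    (div_ne_zero d.1 c.1) (by rw [inv_div]; exact b.mem (div_loc hn d (h.sec f hf q hq))))⟩
  have h2 : ∀ {p q : X}, Dom O p → Dom O q → p ∈ U → q ∈ U → q ⤳ p := fun hp hq h1 h2 =>
    spec_of_un hU h1 h2 fun a ha hu => hq.un (mem_reg.1 ha _ h2) hu.1 (hp.mem hu.2.2)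
  exact ((h2 b a hx h1).antisymm (h2 a b h1 hx)).eq

end Vale.Agent.P283M.Am
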