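import Vale.Agent.P283M.Am.Pl
import Vale.Agent.P283M.Stm

/-!
# P283M (AMP): Cartier b-divisors of the `ℚ`-Cartier divisors on the inverse image of an affine set
-/

set_option linter.all false

open CategoryTheory AlgebraicGeometry TopologicalSpace Order IsLocalRing Pointwise
open Vale.Agent.P299.G Vale.Agent.P289 Vale.Agent.P289.H219 Vale.Agent.P270L.S
open Vale.Agent.P287D Vale.Agent.P297Z

noncomputable section

namespace Vale.Agent.P283M.Am

section gen

variable {X : Scheme.{0}} [IsIntegral X] [IsNoetherian X] {W : X.Opens} {D E H : X → ℚ}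
  {g : X.functionField} {s : Finset X.functionField} {x : X}

open Classical in
/-- the part of `D` which meets `W` -/
def cut (W : X.Opens) (D : X → ℚ) : X → ℚ := fun y => if y ∈ W then D y else 0

theorem gn_cut (hx : x ∈ W) (c : ℚ) : Gn (c • cut W D) g x ↔ Gn (c • D) g x :=
  and_congr_right fun _ => forall₃_congr fun y _ b => by
    have : y ∈ W := b.mem_open W.isOpen hx
    simp only [Pi.smul_apply, cut, if_pos this]

/-- a `ℚ`-Cartier divisor has a Cartier multiple -/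
theorem exists_mult (hE : Fs E) (h : ∀ x ∈ W, ∃ (m : ℕ) (g : X.functionField), 0 < m ∧
    Gn ((m : ℚ) • E) g x) : ∃ r : ℕ, 0 < r ∧ ∀ x ∈ W, ∃ g, Gn ((r : ℚ) • E) g x := by
  classical
  choose m g m0 hg using fun x : W => h x.1 x.2
  obtain ⟨T, hT⟩ := cover W (fun x : W => {p | Gn ((m x : ℚ) • E) (g x) p})
    (fun x => (hE.smul _).isOpen _) fun x hx => ⟨⟨x, hx⟩, hg _⟩
  refine ⟨∏ x ∈ T, m x, Finset.prod_pos fun x _ => m0 x, fun y hy => ?_⟩
  obtain ⟨x, a, b⟩ := hT y hy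
  obtain ⟨c, hc⟩ := Finset.dvd_prod_of_mem m a
  exact ⟨_, by rw [hc, mul_comm, Nat.cast_mul, ← smul_smul]; exact Gn.pow b c⟩

variable [Algebra ℂ X.functionField] {n : ℕ}

/-- finiteness of the support from the finiteness of the trace of a b-divisor -/
theorem VA.fs (h : VA W H s) (hS : Str X) (hn : Nrm X) (hK : FF X.functionField (n + 1))
    {Z : BD X.functionField} (hZ : IsB n Z) (hD : {y | y ∈ W ∧ coheight y = 1 ∧ D y ≠ 0 ∧
      ∃ P : Pl X.functionField, Dom P.ring y ∧ Z P = 0}.Finite) : Fs (cut W D) := by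
  by_cases c : ∃ x, x ∈ W
  swap
  · exact Set.finite_empty.subset fun y a => a.2 (if_neg fun b => c ⟨y, b⟩)
  obtain ⟨x, hx⟩ := c
  refine (hD.union ((hZ s (h.big hx)).biUnion (t := fun P => {y | y ∈ W ∧ Dom P.ring y})
    fun P _ => Set.Subsingleton.finite fun a b c d => h.uniq hn b.1 d.1 b.2 d.2)).subset
      fun y a => ?_
  have hy : y ∈ W := by_contra fun b => a.2 (if_neg b)
  obtain ⟨P, hP⟩ := exists_pl_div hS hn hK a.1
  by_cases e : Z P = 0
  · exact .inl ⟨hy, a.1, fun b => a.2 ((if_pos hy).trans b), P, hP, e⟩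
  · exact .inr (Set.mem_biUnion (x := P) ⟨h.on hS hn hK hy hP a.1, e⟩ ⟨hy, hP⟩)

/-- `Γ` is the pull back of `D` at the places with centre in `W` -/
def Pull (W : X.Opens) (D : X → ℚ) (Γ : BD X.functionField) : Prop :=
  ∀ (P : Pl X.functionField), ∀ x ∈ W, Dom P.ring x → ∀ (m : ℕ) (g : X.functionField), 0 < m →
    Gn ((m : ℚ) • D) g x → m * Γ P = -P.ord g

theorem Sys.pull (hn : Nrm X) {r : ℕ} (hr : 0 < r) (h : Sys W ((r : ℚ) • D) s) :
    Pull W D ((r : ℝ)⁻¹ • P287D.mx s) := fun P x hx hP m g m0 hg => by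
  obtain ⟨f, -, hf⟩ := h.gen x hx
  have a := hf.pow m
  have b := hg.pow r
  rw [smul_comm] at b
  have c := un_div hn a b
  have d := ((dom_un hP c.2.1).1 c).2
  rw [Pl.ord_div _ b.1 a.1, Pl.ord_pow, Pl.ord_pow, sub_eq_zero] at d
  have e : (r : ℝ) * P.ord g = m * P.ord f := by exact_mod_cast d
  have r0 : (r : ℝ) ≠ 0 := Nat.cast_ne_zero.2 hr.ne'
  rw [Pi.smul_apply, h.mx hn hx hP hf, dv_apply, smul_eq_mul]
  field_simp
  linarith

theorem Pull.on (hn : Nrm X) {Γ : BD X.functionField} (h : Pull W D Γ) {P : Pl X.functionField}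
    (hx : x ∈ W) (hP : Dom P.ring x) (hc : coheight x = 1) {m : ℕ} (m0 : 0 < m)
    (hg : Gn ((m : ℚ) • D) g x) : Γ P = D x := by
  have a := h P x hx hP m g m0 hg
  have b := hg.2 x hc specializes_rfl
  rw [od, ← dom_ord hn hP hc, Pi.smul_apply, smul_eq_mul] at b
  have c : (P.ord g : ℝ) + m * D x = 0 := by exact_mod_cast b
  exact mul_left_cancel₀ (Nat.cast_ne_zero.2 m0.ne' : (m : ℝ) ≠ 0) (by linarith)

/-- **a `ℚ`-Cartier divisor on `W` is the trace of a rational Cartier b-divisor** -/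
theorem VA.car (h : VA W H s) (hn : Nrm X) (hE : Fs (cut W E))
    (hc : ∀ x ∈ W, ∃ (m : ℕ) (g : X.functionField), 0 < m ∧ Gn ((m : ℚ) • E) g x) :
    ∃ (r c : ℕ) (s' : Finset X.functionField) (D' : X → ℚ), 0 < r ∧ Sys W D' s' ∧
      Pull W E ((r : ℝ)⁻¹ • (mx s' - (c : ℝ) • mx s)) := by
  obtain ⟨r, r0, hr⟩ := exists_mult (W := W) hE fun x hx =>
    let ⟨m, g, a, b⟩ := hc x hx; ⟨m, g, a, (gn_cut hx _).2 b⟩
  obtain ⟨c, s', hs⟩ := h.rep hn (hE.smul r) hr
  refine ⟨r, c, s', _, r0, hs, fun P x hx hP m g m0 hg => ?_⟩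
  obtain ⟨f, hf⟩ := hr x hx
  obtain ⟨b, -, hb⟩ := h.sys.gen x hx
  have a := ((gn_cut hx _).1 hf).pow m
  have b := hg.pow r
  rw [smul_comm] at b
  have c := un_div hn a b
  have d := ((dom_un hP c.2.1).1 c).2
  rw [Pl.ord_div _ b.1 a.1, Pl.ord_pow, Pl.ord_pow, sub_eq_zero] at d
  have e : (r : ℝ) * P.ord g = m * P.ord f := by exact_mod_cast d
  have r0 : (r : ℝ) ≠ 0 := Nat.cast_ne_zero.2 r0.ne'
  rw [Pi.smul_apply, Pi.sub_apply, Pi.smul_apply, hs.mx hn hx hP (hf.mul (hb.pow _)),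
    h.sys.mx hn hx hP hb, dv_mul hf.1 (pow_ne_zero _ hb.1), dv_pow]
  simp only [Pi.add_apply, Pi.smul_apply, smul_eq_mul, dv_apply]
  field_simp
  linarith

end gen

open Stm Stm.Var

attribute [local instance] MvPolynomial.gradedAlgebra

instance noeth (V : Stm.Var) : IsNoetherian V.X where
  toCompactSpace := by
    obtain ⟨n, i, h1, -⟩ := V.qproj
    have : IsLocallyNoetherian (PP ℂ n) := LocallyOfFiniteType.isLocallyNoetherian (PP.str ℂ n)
    have : CompactSpace (PP ℂ n) :=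
      (quasiCompact_iff_compactSpace (f := PP.str ℂ n)).1 inferInstance
    have : IsNoetherian (PP ℂ n) := {}
    have := i.isEmbedding.isInducing.noetherianSpace
    infer_instance

variable {X Z : Stm.Var} {D : X.PrimeDiv → ℚ} {m : ℕ} {g : X.K} {x : X.X}

theorem str (X : Stm.Var) : Str X.X := ⟨X.str, inferInstance, fun _ => rfl⟩

theorem nrm (X : Stm.Var) : Nrm X.X := X.normal

theorem ff {d : ℕ} (h : dimension X.str = d) : FF X.K d := (str X).ff h

open Classical in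
/-- the coefficients as a function on the points -/
def ex (D : X.PrimeDiv → ℚ) : X.X → ℚ := fun y => if h : coheight y = 1 then D ⟨y, h⟩ else 0

theorem ex_apply (y : X.PrimeDiv) : ex D y.1 = D y := dif_pos y.2

theorem localEq_iff : LocalEq D m g x ↔ Gn ((m : ℚ) • ex D) g⁻¹ x := by
  rw [LocalEq, Gn, ne_eq g⁻¹, inv_eq_zero]
  refine and_congr_right fun g0 => ⟨fun h y a b => ?_, fun h y b => ?_⟩
  · rw [od_inv g0, Pi.smul_apply, ex_apply ⟨y, a⟩, smul_eq_mul, ← h ⟨y, a⟩ b]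
    exact neg_add_cancel _
  · have := h y.1 y.2 b
    rw [od_inv g0, Pi.smul_apply, ex_apply, smul_eq_mul, neg_add_eq_zero] at this
    exact this

theorem amp_of {f : X.X ⟶ Z.X} (h : AmpleOver f D) {U : Z.X.Opens} (hU : IsAffineOpen U) :
    Amp (f ⁻¹ᵁ U) (ex D) := fun x hx => by
  obtain ⟨m, m0, -, h⟩ := h
  obtain ⟨k, s, W, k0, a, b, c, e⟩ := h U hU x hx
  refine ⟨k * m, s, W, mul_pos k0 m0, b, c, fun p hp _ y hy q => ?_, fun p => ?_⟩
  · rw [Pi.smul_apply, ex_apply ⟨y, hy⟩, smul_eq_mul, Nat.cast_mul]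
    exact a ⟨y, hy⟩ (q.mem_open (f ⁻¹ᵁ U).isOpen hp)
  · rw [e, localEq_iff, inv_inv]

/-- the pull back, read with local equations -/
theorem Pull.localEq {W : X.X.Opens} {Γ : BD X.K} (h : Pull W (ex D) Γ) {P : Pl X.K} (hx : x ∈ W)
    (hP : Dom P.ring x) (m0 : 0 < m) (hg : LocalEq D m g x) : Γ P = P.ord g / m := by
  have := h P x hx hP m _ m0 (localEq_iff.1 hg)
  rw [Pl.ord_inv, Int.cast_neg, neg_neg] at this
  rw [← this, mul_div_cancel_left₀ _ (Nat.cast_ne_zero.2 m0.ne')]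

end Vale.Agent.P283M.Am
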